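import Mathlib
import Vale.Agent.Lib.P194.H86.CentralP

/-!
# P194: the augmentation ideal of a finite `p`-group algebra in characteristic `p` is nilpotent

List form: every sufficiently long product of elements `single q 1 - 1` of `R[P]` vanishes.
Strong induction on the order of `P` through the quotient by the cyclic subgroup generated by
a nontrivial central element `z`: the kernel of `R[P] → R[P ⧸ ⟨z⟩]` consists of multiples of
the central nilpotent element `single z 1 - 1`.
-/

namespace Vale.Agent.Lib.P194.H71

open Vale.Agent.Lib.P194.H86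

universe u v

/-- The kernel of `R[P] → R[P ⧸ Z]`, `Z` the cyclic group of a central element `z` of a finite
group `P`, consists of multiples of `single z 1 - 1`. -/
theorem h71_ker_mul {R : Type v} [Ring R] {P : Type u} [Group P] [Finite P] (z : P)
    [hZn : (Subgroup.zpowers z).Normal] (y : MonoidAlgebra R P)
    (hy : MonoidAlgebra.mapDomain
      (fun g : P => (QuotientGroup.mk g : P ⧸ Subgroup.zpowers z)) y = 0) :
    ∃ y' : MonoidAlgebra R P, y = (MonoidAlgebra.single z (1 : R) - 1) * y' := by
  have key : ∀ y : MonoidAlgebra R P, ∃ y' : MonoidAlgebra R P,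
      y - MonoidAlgebra.mapDomain
        (fun g : P => Quotient.out (QuotientGroup.mk g : P ⧸ Subgroup.zpowers z)) y
        = (MonoidAlgebra.single z (1 : R) - 1) * y' := by
    intro y
    induction y using MonoidAlgebra.induction_linear with
    | zero => exact ⟨0, by rw [MonoidAlgebra.mapDomain_zero, sub_zero, mul_zero]⟩
    | add y₁ y₂ h₁ h₂ =>
      obtain ⟨a₁, h₁⟩ := h₁
      obtain ⟨a₂, h₂⟩ := h₂
      refine ⟨a₁ + a₂, ?_⟩
      rw [MonoidAlgebra.mapDomain_add, mul_add, ← h₁, ← h₂]
      abel
    | single g r =>
      rw [MonoidAlgebra.mapDomain_single]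
      set s : P := Quotient.out (QuotientGroup.mk g : P ⧸ Subgroup.zpowers z) with hs
      have hmk : (QuotientGroup.mk s : P ⧸ Subgroup.zpowers z) = QuotientGroup.mk g :=
        Quotient.out_eq _
      have hz1 : s⁻¹ * g ∈ Subgroup.zpowers z := QuotientGroup.eq.mp hmk
      have hzz : g * s⁻¹ ∈ Subgroup.zpowers z := (Subgroup.Normal.mem_comm_iff hZn).mp hz1
      have e : MonoidAlgebra.single g r - MonoidAlgebra.single s r
          = (MonoidAlgebra.single (g * s⁻¹) (1 : R) - 1) * MonoidAlgebra.single s r := by
        rw [sub_mul, one_mul, MonoidAlgebra.single_mul_single, one_mul, inv_mul_cancel_right]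
      obtain ⟨n, hn⟩ : ∃ n : ℕ, z ^ n = g * s⁻¹ :=
        (Submonoid.mem_powers_iff _ _).mp (mem_powers_iff_mem_zpowers.mpr hzz)
      refine ⟨(∑ i ∈ Finset.range n, (MonoidAlgebra.single z (1 : R)) ^ i)
        * MonoidAlgebra.single s r, ?_⟩
      rw [e, ← hn, ← mul_assoc, mul_geom_sum, MonoidAlgebra.single_pow, one_pow]
  obtain ⟨y', hy'⟩ := key y
  rw [mapDomain_out_eq_zero (Subgroup.zpowers z) y hy, sub_zero] at hy'
  exact ⟨y', hy'⟩

theorem h71_aug_aux (p : ℕ) [Fact p.Prime] (R : Type v) [Ring R] [CharP R p] :
    ∀ (n : ℕ) (P : Type u) [Group P] [Finite P], IsPGroup p P → Nat.card P = n →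
      ∃ B : ℕ, ∀ l : List P, B ≤ l.length →
        (l.map (fun q => (MonoidAlgebra.single q (1 : R) - 1 : MonoidAlgebra R P))).prod = 0 := by
  intro n
  induction n using Nat.strong_induction_on with
  | _ n ih =>
    intro P _ _ hP hcard
    by_cases htriv : Subsingleton P
    · refine ⟨1, fun l hl => ?_⟩
      cases l with
      | nil => simp at hl
      | cons q l' =>
        have hq : q = 1 := Subsingleton.elim q 1
        have h0 : (MonoidAlgebra.single (1 : P) (1 : R) - 1 : MonoidAlgebra R P) = 0 := by
          rw [MonoidAlgebra.one_def, sub_self]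
        rw [List.map_cons, List.prod_cons, hq, h0, zero_mul]
    · have hnt : Nontrivial P := not_subsingleton_iff_nontrivial.mp htriv
      have hcn : Nontrivial (Subgroup.center P) := hP.center_nontrivial
      obtain ⟨⟨z, hz⟩, hz1⟩ := exists_ne (1 : Subgroup.center P)
      have hz1' : z ≠ 1 := fun h => hz1 (Subtype.ext h)
      have hzc : ∀ g : P, z * g = g * z := fun g => (Subgroup.mem_center_iff.mp hz g).symm
      have hZc : ∀ w ∈ Subgroup.zpowers z, ∀ g : P, w * g = g * w := by
        intro w hw g
        obtain ⟨i, rfl⟩ := Subgroup.mem_zpowers_iff.mp hw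
        exact (Commute.zpow_left (hzc g) i)
      have hZn : (Subgroup.zpowers z).Normal := ⟨fun w hw g => by
        rw [← hZc w hw g, mul_inv_cancel_right]
        exact hw⟩
      -- the quotient is a smaller p-group
      have hcardlt : Nat.card (P ⧸ Subgroup.zpowers z) < n := by
        have h1 := Subgroup.card_eq_card_quotient_mul_card_subgroup (Subgroup.zpowers z)
        have h2 : 1 < Nat.card (Subgroup.zpowers z) :=
          (Subgroup.one_lt_card_iff_ne_bot _).mpr (Subgroup.zpowers_ne_bot.mpr hz1')
        have h3 : 0 < Nat.card (P ⧸ Subgroup.zpowers z) := Nat.card_pos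
        rw [hcard] at h1
        nlinarith
      obtain ⟨B', hB'⟩ := ih _ hcardlt (P ⧸ Subgroup.zpowers z)
        (hP.to_quotient (Subgroup.zpowers z)) rfl
      -- the central nilpotent element
      have hcc : ∀ t : MonoidAlgebra R P, (MonoidAlgebra.single z (1 : R) - 1) * t
          = t * (MonoidAlgebra.single z (1 : R) - 1) := single_sub_one_central z hzc
      obtain ⟨k, hk⟩ := hP z
      obtain ⟨N, hN⟩ := single_sub_one_nilpotent (R := R) p z k hk
      have hker : ∀ y : MonoidAlgebra R P, MonoidAlgebra.mapDomain
          (fun g : P => (QuotientGroup.mk g : P ⧸ Subgroup.zpowers z)) y = 0 →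
          ∃ y' : MonoidAlgebra R P, y = (MonoidAlgebra.single z (1 : R) - 1) * y' :=
        fun y hy => h71_ker_mul z y hy
      generalize (MonoidAlgebra.single z (1 : R) - 1 : MonoidAlgebra R P) = c at hcc hN hker
      -- the image of a product in the quotient algebra
      have hπ : ∀ l : List P, MonoidAlgebra.mapDomain
          (fun g : P => (QuotientGroup.mk g : P ⧸ Subgroup.zpowers z))
          ((l.map (fun q => (MonoidAlgebra.single q (1 : R) - 1 : MonoidAlgebra R P))).prod)
          = ((l.map (fun g : P => (QuotientGroup.mk g : P ⧸ Subgroup.zpowers z))).map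
              (fun q => (MonoidAlgebra.single q (1 : R) - 1 :
                MonoidAlgebra R (P ⧸ Subgroup.zpowers z)))).prod := by
        intro l
        have h1 := map_list_prod (MonoidAlgebra.mapDomainRingHom R
          (QuotientGroup.mk' (Subgroup.zpowers z)))
          (l.map (fun q => (MonoidAlgebra.single q (1 : R) - 1 : MonoidAlgebra R P)))
        rw [List.map_map] at h1
        rw [List.map_map]
        refine h1.trans ?_
        congr 1
        apply List.map_congr_left
        intro q _
        simp only [Function.comp_apply, map_sub, map_one]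
        rw [MonoidAlgebra.mapDomainRingHom_apply, MonoidAlgebra.mapDomain_single]
        rfl
      -- a list of length at least `j * B'` has product in `c ^ j * R[P]`
      have hblock : ∀ (j : ℕ) (l : List P), j * B' ≤ l.length → ∃ y' : MonoidAlgebra R P,
          (l.map (fun q => (MonoidAlgebra.single q (1 : R) - 1 : MonoidAlgebra R P))).prod
            = c ^ j * y' := by
        intro j
        induction j with
        | zero =>
          intro l _
          exact ⟨_, by rw [pow_zero, one_mul]⟩
        | succ j ihj =>
          intro l hl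
          have hsm : (j + 1) * B' = j * B' + B' := Nat.succ_mul j B'
          have hlen : B' ≤ l.length := by omega
          have htake : (l.take B').length = B' := by
            rw [List.length_take]
            omega
          have h1 : MonoidAlgebra.mapDomain
              (fun g : P => (QuotientGroup.mk g : P ⧸ Subgroup.zpowers z))
              (((l.take B').map (fun q => (MonoidAlgebra.single q (1 : R) - 1 :
                MonoidAlgebra R P))).prod) = 0 := by
            rw [hπ]
            apply hB'
            rw [List.length_map, htake]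
          obtain ⟨y₁, hy₁⟩ := hker _ h1
          obtain ⟨y₂, hy₂⟩ := ihj (l.drop B') (by rw [List.length_drop]; omega)
          refine ⟨y₁ * y₂, ?_⟩
          have hcj : ∀ t : MonoidAlgebra R P, c ^ j * t = t * c ^ j := fun t =>
            Commute.pow_left (hcc t) j
          calc (l.map (fun q => (MonoidAlgebra.single q (1 : R) - 1 : MonoidAlgebra R P))).prod
              = ((l.take B').map (fun q => (MonoidAlgebra.single q (1 : R) - 1 :
                  MonoidAlgebra R P))).prod
                * ((l.drop B').map (fun q => (MonoidAlgebra.single q (1 : R) - 1 :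
                  MonoidAlgebra R P))).prod := by
                rw [← List.prod_append, ← List.map_append, List.take_append_drop]
            _ = c * y₁ * (c ^ j * y₂) := by rw [hy₁, hy₂]
            _ = c * (y₁ * c ^ j) * y₂ := by noncomm_ring
            _ = c * (c ^ j * y₁) * y₂ := by rw [hcj y₁]
            _ = c ^ (j + 1) * (y₁ * y₂) := by
                rw [pow_succ']
                noncomm_ring
      refine ⟨N * B', fun l hl => ?_⟩
      obtain ⟨y', hy'⟩ := hblock N l hl
      rw [hy', hN, zero_mul]

theorem aug_list_prod_eq_zero (p : ℕ) [Fact p.Prime] (R : Type*) [Ring R] [CharP R p]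
    (P : Type*) [Group P] [Finite P] (hP : IsPGroup p P) :
    ∃ B : ℕ, ∀ l : List P, B ≤ l.length →
      (l.map (fun q => (MonoidAlgebra.single q (1 : R) - 1 : MonoidAlgebra R P))).prod = 0 :=
  h71_aug_aux p R (Nat.card P) P hP rfl

end Vale.Agent.Lib.P194.H71
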